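import Vale.Agent.P343.H736.Avg

/-!
The Sakoda-Sipser question in an average-case form: two-way deterministic automata with few states
err on a positive fraction of the words of every large length.
-/

namespace Vale.Agent.Results.P343.AverageCase

open Vale.Agent.P343 Vale.Agent.P343.H744

theorem result :
    -- (1) Q2 as posed, (a) and (b)
    ((¬ ∃ p : Polynomial ℝ, ∀ (α : Type) (_ : Finite α) (n : ℕ) (A : TwoNFA α (Fin n)),
        ∃ s : ℕ, (s : ℝ) ≤ p.eval (n : ℝ) ∧
          ∃ B : TwoNFA α (Fin s), B.Deterministic ∧ Equivalent A B) ∧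
      (¬ ∃ p : Polynomial ℝ, ∀ (α : Type) (_ : Finite α) (n : ℕ) (A : TwoNFA α (Fin n)),
        A.OneWay → ∃ s : ℕ, (s : ℝ) ≤ p.eval (n : ℝ) ∧
          ∃ B : TwoNFA α (Fin s), B.Deterministic ∧ Equivalent A B)) ∧
    -- (2) over every finite alphabet with at least two letters, some one-way automaton is such
    -- that small two-way deterministic automata err on a positive fraction of all long words
    (∀ (α : Type) [Fintype α], 2 ≤ Fintype.card α → ∀ n j : ℕ, 34 * j + 60 ≤ n →
      ∃ A : TwoNFA α (Fin n), A.OneWay ∧ ∀ s : ℕ, s < 2 ^ j → ∃ ε : ℝ, 0 < ε ∧ ∃ N0 : ℕ,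
        ∀ N, N0 ≤ N → ∀ B : TwoNFA α (Fin s), B.Deterministic →
          ε * (Fintype.card α : ℝ) ^ N ≤
            (({w : List α | w.length = N ∧ ¬ (A.Accepts w ↔ B.Accepts w)}.ncard : ℕ) : ℝ)) :=
  ⟨⟨no_polynomial, no_polynomial_oneWay⟩,
    fun α _ hα n j hn => Vale.Agent.P343.H736.avg_lower α hα n j hn⟩

end Vale.Agent.Results.P343.AverageCase
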