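import Vale.Agent.P343.H744.Liveness

/-!
The Sakoda-Sipser question over every alphabet with at least two letters, with the exact order of
the exponent, and for the one-way liveness problem.
-/

namespace Vale.Agent.Results.P343.BinaryAlphabet

open Vale.Agent.P343 Vale.Agent.P343.H744

theorem result :
    -- (1) Q2 as posed, (a) and (b), and the exponential lower bound over large alphabets
    ((¬ ∃ p : Polynomial ℝ, ∀ (α : Type) (_ : Finite α) (n : ℕ) (A : TwoNFA α (Fin n)),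
        ∃ s : ℕ, (s : ℝ) ≤ p.eval (n : ℝ) ∧
          ∃ B : TwoNFA α (Fin s), B.Deterministic ∧ Equivalent A B) ∧
      (¬ ∃ p : Polynomial ℝ, ∀ (α : Type) (_ : Finite α) (n : ℕ) (A : TwoNFA α (Fin n)),
        A.OneWay → ∃ s : ℕ, (s : ℝ) ≤ p.eval (n : ℝ) ∧
          ∃ B : TwoNFA α (Fin s), B.Deterministic ∧ Equivalent A B) ∧
      (∀ n j : ℕ, 17 * j + 20 ≤ n →
        ∃ (α : Type) (_ : Finite α) (A : TwoNFA α (Fin n)), A.OneWay ∧
          ∀ (s : ℕ) (B : TwoNFA α (Fin s)), B.Deterministic → Equivalent A B → 2 ^ j ≤ s)) ∧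
    -- (2) over each alphabet with at least two letters the cost is still exponential
    (∀ (α : Type) (_ : Nontrivial α),
      (¬ ∃ p : Polynomial ℝ, ∀ (n : ℕ) (A : TwoNFA α (Fin n)), A.OneWay →
        ∃ s : ℕ, (s : ℝ) ≤ p.eval (n : ℝ) ∧
          ∃ B : TwoNFA α (Fin s), B.Deterministic ∧ Equivalent A B) ∧
      (∀ n j : ℕ, 17 * j + 27 ≤ n → ∃ A : TwoNFA α (Fin n), A.OneWay ∧
        ∀ (s : ℕ) (B : TwoNFA α (Fin s)), B.Deterministic → Equivalent A B → 2 ^ j ≤ s)) ∧
    -- (3) the subset construction gives the matching upper bound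
    (∀ (α : Type) (n : ℕ) (A : TwoNFA α (Fin n)), A.OneWay →
      ∃ B : TwoNFA α (Fin (2 ^ n + 1)), B.Deterministic ∧ Equivalent A B) ∧
    -- (4) one-way liveness on `h` points
    (∀ h : ℕ, 0 < h →
      (∃ A : TwoNFA (Fin h → Fin h → Bool) (Fin (h + 1)), A.OneWay ∧
        ∀ w, A.Accepts w ↔ Live w) ∧
      (∀ (j s : ℕ) (B : TwoNFA (Fin h → Fin h → Bool) (Fin s)), 17 * j + 19 ≤ h →
        B.Deterministic → (∀ w, B.Accepts w ↔ Live w) → 2 ^ j ≤ s)) :=
  ⟨⟨no_polynomial, no_polynomial_oneWay, linear_lower⟩,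
    fun α _ => ⟨nontrivial_no_polynomial_oneWay α, nontrivial_lower α⟩,
    subset_upper,
    fun h hh => ⟨liveness_upper h hh, fun j s B hj hB hl => liveness_lower h j s hj B hB hl⟩⟩

end Vale.Agent.Results.P343.BinaryAlphabet
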