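import Vale.Agent.P343.H741.All
import Vale.Agent.P343.H741.Nontriv

/-!
Complementing two-way nondeterministic automata: the number of states can grow exponentially.
-/

namespace Vale.Agent.Results.P343.ComplementBlowup

open Vale.Agent.P343 Vale.Agent.P343.H744

theorem result :
    -- (1) Q1 as posed
    (¬ ∃ p : Polynomial ℝ, ∀ (α : Type) (_ : Finite α) (n : ℕ) (A : TwoNFA α (Fin n)),
      ∃ s : ℕ, (s : ℝ) ≤ p.eval (n : ℝ) ∧
        ∃ B : TwoNFA α (Fin s), ∀ w, B.Accepts w ↔ ¬ A.Accepts w) ∧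
    -- (2) one-way sources, over each alphabet with at least two letters
    (∀ (α : Type) (_ : Nontrivial α),
      (¬ ∃ p : Polynomial ℝ, ∀ (n : ℕ) (A : TwoNFA α (Fin n)), A.OneWay →
        ∃ s : ℕ, (s : ℝ) ≤ p.eval (n : ℝ) ∧
          ∃ B : TwoNFA α (Fin s), ∀ w, B.Accepts w ↔ ¬ A.Accepts w) ∧
      (∀ n j : ℕ, 33 * j + 80 ≤ n → ∃ A : TwoNFA α (Fin n), A.OneWay ∧
        ∀ (s : ℕ) (B : TwoNFA α (Fin s)), (∀ w, B.Accepts w ↔ ¬ A.Accepts w) → 2 ^ j ≤ s)) ∧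
    -- (3) the matching upper bound
    (∀ (α : Type) (n : ℕ) (A : TwoNFA α (Fin n)), A.OneWay →
      ∃ B : TwoNFA α (Fin (2 ^ n + 1)), B.Deterministic ∧ ∀ w, B.Accepts w ↔ ¬ A.Accepts w) ∧
    -- (4) one-way liveness on `h` points
    (∀ h : ℕ, 0 < h →
      (∃ A : TwoNFA (Fin h → Fin h → Bool) (Fin (h + 1)), A.OneWay ∧
        ∀ w, A.Accepts w ↔ Live w) ∧
      (∀ (j s : ℕ) (B : TwoNFA (Fin h → Fin h → Bool) (Fin s)), 33 * j + 80 ≤ h →
        (∀ w, B.Accepts w ↔ ¬ Live w) → 2 ^ j ≤ s)) ∧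
    -- (5) Q2 as posed, (a) and (b)
    (¬ ∃ p : Polynomial ℝ, ∀ (α : Type) (_ : Finite α) (n : ℕ) (A : TwoNFA α (Fin n)),
      ∃ s : ℕ, (s : ℝ) ≤ p.eval (n : ℝ) ∧
        ∃ B : TwoNFA α (Fin s), B.Deterministic ∧ Equivalent A B) ∧
    (¬ ∃ p : Polynomial ℝ, ∀ (α : Type) (_ : Finite α) (n : ℕ) (A : TwoNFA α (Fin n)),
      A.OneWay → ∃ s : ℕ, (s : ℝ) ≤ p.eval (n : ℝ) ∧
        ∃ B : TwoNFA α (Fin s), B.Deterministic ∧ Equivalent A B) :=
  ⟨H741.no_poly_q1 (H741.nontrivial_compl Bool),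
    fun α _ => ⟨H741.no_poly_compl α (H741.nontrivial_compl α), H741.nontrivial_compl α⟩,
    H69.compl_upper,
    fun h hh => ⟨liveness_upper h hh, fun j s B hj hB => H741.liveCompl h j s B hj hB⟩,
    no_polynomial, no_polynomial_oneWay⟩

end Vale.Agent.Results.P343.ComplementBlowup
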