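import Vale.Agent.P343.H69.Union

/-!
The Sakoda-Sipser question, for targets that are Boolean combinations of two-way automata whose
nondeterministic choices are made on the endmarkers only.
-/

namespace Vale.Agent.Results.P343.EndmarkerChoices

open Vale.Agent.P343

theorem result :
    -- (1) Q2 as posed, (a) and (b), with an exponential lower bound
    ((¬ ∃ p : Polynomial ℝ, ∀ (α : Type) (_ : Finite α) (n : ℕ) (A : TwoNFA α (Fin n)),
        ∃ s : ℕ, (s : ℝ) ≤ p.eval (n : ℝ) ∧
          ∃ B : TwoNFA α (Fin s), B.Deterministic ∧ Equivalent A B) ∧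
      (¬ ∃ p : Polynomial ℝ, ∀ (α : Type) (_ : Finite α) (n : ℕ) (A : TwoNFA α (Fin n)),
        A.OneWay → ∃ s : ℕ, (s : ℝ) ≤ p.eval (n : ℝ) ∧
          ∃ B : TwoNFA α (Fin s), B.Deterministic ∧ Equivalent A B) ∧
      (∀ n j : ℕ, 17 * j + 20 ≤ n →
        ∃ (α : Type) (_ : Finite α) (A : TwoNFA α (Fin n)), A.OneWay ∧
          ∀ (s : ℕ) (B : TwoNFA α (Fin s)), B.Deterministic → Equivalent A B → 2 ^ j ≤ s)) ∧
    -- (2) Boolean combinations of automata that choose only on the endmarkers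
    (∀ (α : Type) (_ : Nontrivial α) (n j : ℕ), 17 * j + 27 ≤ n →
      ∃ A : TwoNFA α (Fin n), A.OneWay ∧
        ∀ (k : ℕ) (s : Fin k → ℕ) (B : (i : Fin k) → TwoNFA α (Fin (s i))),
          (∀ i, (B i).DeterministicOnLetters) →
          (∀ u v : List α, (∀ i, (B i).Accepts u ↔ (B i).Accepts v) →
            (A.Accepts u ↔ A.Accepts v)) →
          2 ^ j ≤ ∑ i, s i) :=
  ⟨⟨no_polynomial, no_polynomial_oneWay, linear_lower⟩, fun α _ n j hn => H69.ends_lower α n j hn⟩

end Vale.Agent.Results.P343.EndmarkerChoices
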